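import Crest.Agent.X262.Geo.Val
import Crest.Agent.X262.Loc95.Kc
import Crest.Agent.X262.Brg.Hyp0

/-!
# Row 262, LIN (helper62), part 2: Bezout inequalities for generic points

* `mx1 k t` : the hyperplane class of the point `(1 : t)`;
* `bez`  : a proper specialisation drops the dimension; degree of a divisor cut by a polynomial;
* `pn`   : the degree of projective space; `bez1`, `bez2` : one and two equations.
-/

set_option autoImplicit false
set_option linter.unusedSectionVars false

noncomputable section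

namespace Crest.Agent.X262.Lin62

open Crest.Agent.X277 Crest.Agent.X277.BD Crest.Agent.X277.Pst Crest.Agent.X277.BD.Cyc
open Crest.Agent.X262.Geo MvPolynomial
open List (replicate)
open IntermediateField (adjoin)
open Set (range)

variable {k F E : Type} [Field k] [Field F] [Field E] [Algebra k F] [Algebra k E] {n : ℕ}

/-- the hyperplane class of the point `(1 : t)` -/
def mx1 (k : Type) [Field k] [Algebra k F] (t : Fin n → F) : BD k F :=
  mxf k (Fin.cons 1 t : Fin (n + 1) → F)

theorem free_mx1 (t : Fin n → F) : Free (mx1 k t) := free_mxf _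

theorem mx1_nonneg (t : Fin n → F) : 0 ≤ mx1 k t :=
  nonneg_iff.2 (mem_Sec_mxf (Fin.cons 1 t : Fin (n + 1) → F) 0)

theorem mem_mx1 (t : Fin n → F) (i : Fin n) : t i ∈ (mx1 k t).Sec :=
  mem_Sec_mxf (Fin.cons 1 t : Fin (n + 1) → F) i.succ

theorem pb_mx1 (α : E →ₐ[k] F) (s : Fin n → E) : pb α (mx1 k s) = mx1 k fun i => α (s i) := by
  rw [mx1, pb_mxf, mx1]
  congr 1
  funext i
  refine Fin.cases ?_ (fun i => ?_) i <;> simp

theorem aeval_mem (t : Fin n → F) {c : MvPolynomial (Fin n) k} {e : ℕ} (he : c.totalDegree ≤ e) :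
    aeval t c ∈ (e • mx1 k t).Sec := by
  rw [aeval_def, eval₂_eq']
  refine Submodule.sum_mem _ fun d hd => ?_
  rw [← Algebra.smul_def]
  refine Submodule.smul_mem _ _ ?_
  have h1 := prod_mem_Sec Finset.univ (a := fun i => d i • mx1 k t) (g := fun i => t i ^ d i)
    fun i _ => pow_mem_Sec (mem_mx1 t i) _
  rw [← Finset.sum_smul] at h1
  refine Sec_mono (nsmul_le_nsmul_left (mx1_nonneg t) (le_trans ?_ he)) h1
  have h2 := le_totalDegree hd
  rwa [Finsupp.sum_fintype _ _ fun _ => rfl] at h2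

theorem mxf_le {ι : Type} [Fintype ι] {s : ι → F} {a : BD k F} (h0 : ∃ i, s i ≠ 0)
    (h1 : ∀ i, s i ∈ a.Sec) : mxf k s ≤ a := fun V => by
  obtain ⟨i, hi⟩ := exists_val_mxf (k := k) h0 V
  exact hi ▸ h1 i V

/-- two families with the same span -/
theorem mxf_congr {ι κ : Type} [Fintype ι] [Fintype κ] {s : ι → F} {t : κ → F} (h0 : ∃ i, s i ≠ 0)
    (h1 : ∀ i, s i ∈ Submodule.span k (range t)) (h2 : ∀ j, t j ∈ Submodule.span k (range s)) :
    mxf k s = mxf k t := by
  refine le_antisymm (mxf_le h0 fun i =>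
    Submodule.span_le.2 (Set.range_subset_iff.2 (mem_Sec_mxf t)) (h1 i))
    (mxf_le (by_contra fun h => ?_) fun j =>
      Submodule.span_le.2 (Set.range_subset_iff.2 (mem_Sec_mxf s)) (h2 j))
  obtain ⟨i, hi⟩ := h0
  refine hi ((Submodule.span_eq_bot.2 ?_).le (h1 i))
  rintro _ ⟨j, rfl⟩
  exact not_not.1 (not_exists.1 h j)

theorem adjoin_sub {ι : Type} (s : ι → F) : adjoin k (range fun i =>
    (⟨s i, IntermediateField.subset_adjoin _ _ ⟨i, rfl⟩⟩ : adjoin k (range s))) = ⊤ := by
  rw [← IntermediateField.lift_inj, IntermediateField.lift_adjoin, IntermediateField.lift_top,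
    ← Set.range_comp]
  rfl

theorem exists_hom {ι : Type} {s : ι → E} (hs : adjoin k (range s) = ⊤) {ρ : ι → F}
    (h : ∀ q : MvPolynomial ι k, aeval ρ q = 0 ↔ aeval s q = 0) :
    ∃ α : E →ₐ[k] F, ∀ i, α (s i) = ρ i := by
  let f := Ideal.kerLiftAlg (aeval (R := k) s)
  let _ := f.toRingHom.toAlgebra
  have : IsScalarTower k (MvPolynomial ι k ⧸ RingHom.ker (aeval (R := k) s)) E :=
    IsScalarTower.of_algebraMap_eq fun c => (f.commutes c).symm
  have : FaithfulSMul (MvPolynomial ι k ⧸ RingHom.ker (aeval (R := k) s)) E :=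
    (faithfulSMul_iff_algebraMap_injective _ _).2 (Ideal.kerLiftAlg_injective _)
  have : IsFractionRing (MvPolynomial ι k ⧸ RingHom.ker (aeval (R := k) s)) E :=
    .of_field _ _ fun z => by
      obtain ⟨a, b, h⟩ := (IntermediateField.mem_adjoin_range_iff k s z).1
        (hs ▸ IntermediateField.mem_top)
      exact ⟨Ideal.Quotient.mk _ a, Ideal.Quotient.mk _ b, h⟩
  let g := Ideal.Quotient.liftₐ (RingHom.ker (aeval (R := k) s)) (aeval ρ) fun q hq => (h q).2 hq
  have hg : Function.Injective g := (injective_iff_map_eq_zero g).2 fun a ha => by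
    obtain ⟨q, rfl⟩ := Ideal.Quotient.mk_surjective a
    exact Ideal.Quotient.eq_zero_iff_mem.2 ((h q).1 ha)
  refine ⟨IsFractionRing.liftAlgHom hg, fun i => ?_⟩
  have h1 := IsFractionRing.lift_algebraMap (K := E) (g := g.toRingHom) hg
    (Ideal.Quotient.mk _ (X i))
  have h2 : algebraMap _ E (Ideal.Quotient.mk (RingHom.ker (aeval (R := k) s)) (X i)) = s i :=
    aeval_X s i
  rw [h2] at h1
  exact h1.trans (aeval_X ρ i)

theorem alg_of_top {S : Set F} (h : adjoin k S = ⊤) :
    Algebra.IsAlgebraic (Algebra.adjoin k S) F := by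
  rw [← IntermediateField.isAlgebraic_adjoin_iff_top, h]
  infer_instance

theorem eft_of_top {ι : Type} [Finite ι] {s : ι → F} (h : adjoin k (range s) = ⊤) :
    Algebra.EssFiniteType k F :=
  IntermediateField.fg_top_iff.1 (h ▸ IntermediateField.fg_adjoin_of_finite (Set.finite_range s))

variable [CharZero k] [Algebra.EssFiniteType k F] [Algebra.EssFiniteType k E]

theorem dim_le_card {ι : Type} [Fintype ι] {s : ι → F} (h : adjoin k (range s) = ⊤) :
    dim k F ≤ Fintype.card ι := by
  have := alg_of_top h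
  have h1 := (Algebra.IsAlgebraic.trdeg_le_cardinalMk k (range s)).trans Cardinal.mk_range_le
  rw [trdeg_eq_dim, Cardinal.mk_fintype] at h1
  exact_mod_cast h1

variable {V : RZ k F}

theorem dg_rep (hV : Dvs V) {ι : Type} [Fintype ι] {s : ι → F} {i : ι} (hi : s i ≠ 0)
    (h : ∀ j, s j / s i ∈ V.1) (α : E →ₐ[k] Rf V) {u : ι → E}
    (hu : ∀ j, α (u j) = (plV V).r (s j / s i)) (d : ℕ) :
    dg V (replicate d (mxf k s)) = deg α * bnum (replicate d (mxf k u)) := by
  classical
  have := essFT_Rf hV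
  have h2 : V.v (s i) = (mxf k s).val V := (val_mxf hi fun j => (RZ.le_iff hi).2 (h j)).symm
  have h4 : mxf k s - pr k (s i) = mxf k fun j => s j / s i := by
    refine eq_mxf (fun j => (mem_Sec_sub_pr hi).2
      (by rw [div_mul_cancel₀ _ hi]; exact mem_Sec_mxf s j)) fun W => ?_
    obtain ⟨j, hj⟩ := exists_val_mxf (k := k) ⟨i, hi⟩ W
    exact ⟨j, by rw [map_div₀, hj, val_sub, val_pr hi]⟩
  have h5 : Lin ((plV V).rs (mxf k s)) (pb α (mxf k u)) := by
    have h6 := Pl.lin_rs (p := plV V) h2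
    have h7 : (plV V).res (mxf k fun j => s j / s i) = mxf k fun j => (plV V).r (s j / s i) := by
      rw [mxf, Pl.res_mx (p := plV V) (fun y hy => by
        obtain ⟨j, -, rfl⟩ := Finset.mem_image.1 hy; exact h j)
        ⟨1, by simpa using ⟨i, div_self hi⟩, map_one _⟩, Finset.image_image]
      rfl
    rwa [pb_mxf, funext hu, ← h7, ← h4]
  have h7 := Loc.bnum_rep_lin h5 d []
  rw [List.nil_append, List.nil_append] at h7
  rw [Geo.dg_eq, List.map_replicate, h7, ← List.map_replicate, bnum_pb]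

/-- **Bezout**: a proper specialisation -/
theorem bez (t : Fin n → F) {s : Fin n → E} (hs : adjoin k (range s) = ⊤)
    (h : ∀ q : MvPolynomial (Fin n) k, aeval t q = 0 → aeval s q = 0) {c : MvPolynomial (Fin n) k}
    (h1 : aeval t c ≠ 0) (h2 : aeval s c = 0) {e : ℕ} (he : c.totalDegree ≤ e) :
    dim k E + 1 ≤ dim k F ∧ (dim k E + 1 = dim k F →
      bnum (replicate (dim k E) (mx1 k s)) ≤ e * bnum (replicate (dim k E + 1) (mx1 k t))) := by
  have := RingHom.ker_isPrime (aeval (R := k) s)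
  obtain ⟨V0, h3, h4⟩ := Cns.exists_val (aeval (R := k) t).toRingHom
    (RingHom.ker (aeval (R := k) s)) h
  let V : RZ k F := ⟨V0, fun a => by simpa using h3 (C a)⟩
  have ht : ∀ i, t i ∈ V.1 := fun i => by simpa using h3 (X i)
  have h5 : ∀ q : MvPolynomial (Fin n) k, V.v (aeval t q) = 1 ↔ aeval s q ≠ 0 := fun q =>
    Cns.un_iff_val.symm.trans (h4 q)
  have h6 : ∀ q : MvPolynomial (Fin n) k, (plV V).r (aeval t q) =
      aeval (fun i => (plV V).r (t i)) q := fun q => (r_aeval (lnr_plV V) ht q).2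
  obtain ⟨α, hα⟩ := exists_hom hs (ρ := fun i => (plV V).r (t i)) fun q => by
    rw [← h6, ← not_iff_not]
    exact (Pl.r_ne_zero_iff (p := plV V)).trans (h5 q)
  have h0 : V.1 ≠ ⊤ := fun h0 => (h5 c).1 (Cns.un_iff_val.1 (h0 ▸ Cns.un_top h1)) h2
  obtain ⟨z, hz⟩ := exists_isTranscendenceBasis k E
  have h7 := hz.cardinalMk_eq_trdeg
  rw [trdeg_eq_dim] at h7
  obtain ⟨ε⟩ := Cardinal.mk_eq_nat_iff.1 h7
  choose y hy using fun i : Fin (dim k E) => surj_plV V (α (ε.symm i))
  have h8 : R276.DivVal_858.ResInd k V.1 fun i => (y i : F) := by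
    refine (resInd_iff (lnr_plV V) fun i => (y i).2).2 ?_
    simp only [Pl.r_coe, hy]
    exact (hz.1.comp _ ε.symm.injective).map' α.injective
  refine ⟨h8.succ_le trdeg_eq_dim V.2 h0, fun hd => ?_⟩
  have hV : Dvs V := R276.DivVal_858.isDiv_iff.2 ⟨V.2, h0, by
    rw [dm_eq, ← hd]
    exact ⟨_, h8⟩⟩
  have := essFT_Rf hV
  have h9 : 0 < deg α := (deg_pos_iff α).2 (by have := dim_Rf' hV; omega)
  have ha : 0 ≤ e • mx1 k t - pr k (aeval t c) := sub_nonneg.2 ((pr_le_iff h1).2 (aeval_mem t he))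
  have hH : (mx1 k t).val V = 1 := by
    rw [mx1, val_mxf (i := 0) (by simp) (Fin.cases le_rfl fun j => by
      simpa using RZ.le_one_iff.2 (ht j))]
    simp
  have hb : 1 ≤ od V (e • mx1 k t - pr k (aeval t c)) :=
    lt_of_le_of_ne (od_nonneg ha) fun h0 => (h5 c).1 (by
      have h3 := (od_eq_zero hV).1 h0.symm
      rwa [val_sub, val_nsmul, hH, one_pow, val_pr h1, one_div, inv_eq_one] at h3) h2
  have hN := all_rp (N := Nef) (free_mx1 (k := k) t).nef (dim k E)
  have hc := od_mul_le ha hN hV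
  rw [bnum_sub, bnum_pr, sub_zero, bnum_nsmul, ← List.replicate_succ] at hc
  refine le_trans ?_ ((le_mul_of_one_le_left (dg_nonneg hN) hb).trans hc)
  rw [mx1, mx1, dg_rep hV (i := 0) (by simp) (Fin.cases (by simp) fun j => by simpa using ht j) α
    (u := (Fin.cons 1 s : Fin (n + 1) → E)) (Fin.cases (by simp) fun j => by simpa using hα j)]
  exact le_mul_of_one_le_left (bnum_nonneg (all_rp (N := Nef) (free_mxf _).nef _))
    (by exact_mod_cast h9)

theorem p1 {t : Fin 1 → F} (h : adjoin k (range t) = ⊤) : bnum [mx1 k t] ≤ 1 := by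
  rw [Set.range_unique] at h
  by_cases ht : Transcendental k (t default)
  · refine le_of_eq (Eq.trans ?_ (Loc.bnum_pole_rat ht h))
    rw [mx1]
    congr 2
  · have h1 := IntermediateField.adjoin.finiteDimensional (not_not.1 ht).isIntegral
    rw [h] at h1
    have h2 : dim k F = 0 :=
      Loc.dim_eq_zero_iff.2 (Module.Finite.equiv IntermediateField.topEquiv.toLinearEquiv)
    rw [bnum_of_ne (by simp [h2])]
    exact zero_le_one

/-- the degree of projective space -/
theorem pn : ∀ (n : ℕ) {k F : Type} [Field k] [Field F] [Algebra k F] [CharZero k]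
    [Algebra.EssFiniteType k F] {t : Fin n → F}, adjoin k (range t) = ⊤ →
      bnum (replicate n (mx1 k t)) ≤ 1
  | 0, k, F, _, _, _, _, _, t, h => by
    rw [Set.range_eq_empty, IntermediateField.adjoin_empty] at h
    rw [List.replicate_zero, Loc.bnum_nil, ← IntermediateField.finrank_top', ← h,
      IntermediateField.finrank_bot]
    rfl
  | n + 1, k, F, _, _, _, _, _, t, h => by
    let K := adjoin k (range fun _ : Fin 1 => t 0)
    let u : Fin 1 → K := fun i => ⟨t 0, IntermediateField.subset_adjoin _ _ ⟨i, rfl⟩⟩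
    have hu : adjoin k (range u) = ⊤ := adjoin_sub _
    have h1 : bnum ((mx1 k t - pb K.val (mx1 k u)) :: replicate n (mx1 k t)) = 0 := by
      refine bnum_eq_zero fun V hV h0 => ?_
      have := essFT_Rf hV
      set s : Fin (n + 2) → F := Fin.cons 1 t with hs
      obtain ⟨i, hi⟩ := exists_val_mxf (k := k) (s := s) ⟨0, one_ne_zero⟩ V
      rw [pb_mx1] at h0
      have h2 : (mx1 k fun i => K.val (u i)).val V < V.v (s i) := by
        rw [hi]
        refine lt_of_le_of_ne (mxf_le ⟨0, one_ne_zero⟩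
          (Fin.cases (mem_Sec_mxf s 0) fun _ => mem_mx1 t 0) V) fun h => h0 ?_
        rw [od_eq_zero hV, val_sub, h]
        exact div_self (val_ne _ _)
      have h3 : V.v 1 < V.v (s i) := (nonneg_iff.1 (mx1_nonneg _) V).trans_lt h2
      have h4 : V.v (t 0) < V.v (s i) := (mem_mx1 (fun i => K.val (u i)) 0 V).trans_lt h2
      have h5 := ne_of_val hi
      have h6 : ∀ j, s j / s i ∈ V.1 := fun j => (RZ.le_iff h5).1 (hi ▸ mem_Sec_mxf s j V)
      have h7 : ∀ j, V.v (s j) < V.v (s i) → (plV V).r (s j / s i) = 0 := fun j hj =>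
        (Pl.r_eq_zero (p := plV V) (h6 j)).2 (by
          rw [map_div₀]
          exact (div_lt_one₀ (RZ.pos h5)).2 hj)
      obtain rfl | ⟨i, rfl⟩ := i.eq_zero_or_eq_succ
      · exact (lt_irrefl _ h3).elim
      obtain rfl | ⟨i, rfl⟩ := i.eq_zero_or_eq_succ
      · exact (lt_irrefl _ h4).elim
      let w : {j : Fin n // j ≠ i} → Rf V := fun j => (plV V).r (s j.1.succ.succ / s i.succ.succ)
      have h8 : ∀ j, (plV V).r (s j / s i.succ.succ) ∈ adjoin k (range w) := by
        refine Fin.cases (h7 0 h3 ▸ zero_mem _) (Fin.cases (h7 (Fin.succ 0) h4 ▸ zero_mem _) fun j => ?_)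
        by_cases hj : j = i
        · rw [hj, div_self h5, Pl.r_one]
          exact one_mem _
        · exact IntermediateField.subset_adjoin _ _ ⟨⟨j, hj⟩, rfl⟩
      have h9 := (dim_le_card (k := k) (adjoin_sub w)).trans_lt
        (Fintype.card_subtype_lt (x := i) (by simp))
      rw [mx1, dg_rep hV h5 h6 (adjoin k (range w)).val (u := fun j => ⟨_, h8 j⟩) fun _ => rfl,
        bnum_of_ne (by simpa using h9.ne'), mul_zero]
    have h2 : bnum (replicate n (mx1 k t) ++ [mx1 k u].map (pb K.val)) ≤ 1 := by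
      rcases (dim_le_card hu).eq_or_lt with hd | hd
      · rw [Loc.bnum_prj_val K _ (by simpa using hd.symm), List.map_replicate]
        have h3 : up K (mx1 k t) = mx1 K (Fin.tail t) := by
          rw [mx1, up_mxf, mx1]
          refine mxf_congr ⟨0, one_ne_zero⟩ (Fin.cases (Submodule.subset_span ⟨0, rfl⟩)
            (Fin.cases ?_ fun j => Submodule.subset_span ⟨j.succ, rfl⟩))
            (Fin.cases (Submodule.subset_span ⟨0, rfl⟩)
              fun j => Submodule.subset_span ⟨j.succ.succ, rfl⟩)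
          simpa [Algebra.smul_def, u] using Submodule.smul_mem _ (u 0) (Submodule.subset_span
            (R := K) (s := range (Fin.cons 1 (Fin.tail t) : Fin (n + 1) → F)) ⟨0, rfl⟩)
        have h4 : adjoin K (range (Fin.tail t)) = ⊤ := by
          rw [← IntermediateField.restrictScalars_eq_top_iff (K := k),
            IntermediateField.adjoin_adjoin_left, ← h, Set.range_const, Set.singleton_union,
            ← Fin.range_cons, Fin.cons_self_tail]
        rw [h3]
        exact mul_le_one₀ (p1 hu) (bnum_nonneg (all_rp (N := Nef) (free_mx1 _).nef _)) (pn n h4)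
      · rw [bnum_comm, bnum_pb_zero _ (by simpa using hd)]
        exact zero_le_one
    rw [bnum_sub, sub_eq_zero] at h1
    rw [List.replicate_succ, h1]
    rwa [bnum_comm] at h2

theorem bez1 {s : Fin n → E} (hs : adjoin k (range s) = ⊤) {c : MvPolynomial (Fin n) k}
    (h1 : c ≠ 0) (h2 : aeval s c = 0) {e : ℕ} (he : c.totalDegree ≤ e) :
    dim k E + 1 ≤ n ∧ (dim k E + 1 = n → bnum (replicate (dim k E) (mx1 k s)) ≤ e) := by
  let F := FractionRing (MvPolynomial (Fin n) k)
  let t : Fin n → F := fun i => algebraMap (MvPolynomial (Fin n) k) F (X i)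
  have ht : adjoin k (range t) = ⊤ :=
    Brg.Hyp0.adjoin_top_of_frac X fun q => ⟨q, aeval_X_left_apply q⟩
  have := eft_of_top ht
  have h3 : ∀ q : MvPolynomial (Fin n) k, aeval t q = 0 → q = 0 := fun q hq => by
    have h := (aeval_algebraMap_apply F X q).symm.trans hq
    rw [aeval_X_left_apply] at h
    exact (map_eq_zero_iff _ (IsFractionRing.injective _ F)).1 h
  have h4 := bez t hs (fun q hq => by rw [h3 q hq, map_zero]) (mt (h3 c) h1) h2 he
  have h5 := dim_le_card ht
  rw [Fintype.card_fin] at h5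
  refine ⟨h4.1.trans h5, fun hd => (h4.2 (by omega)).trans ?_⟩
  rw [hd]
  exact mul_le_of_le_one_right (Nat.cast_nonneg e) (pn n ht)

theorem bez2 {s : Fin n → E} (hs : adjoin k (range s) = ⊤) {f c : MvPolynomial (Fin n) k}
    (hf : Prime f) (h0 : aeval s f = 0) (h1 : ¬ f ∣ c) (h2 : aeval s c = 0) {e e' : ℕ}
    (he : c.totalDegree ≤ e) (he' : f.totalDegree ≤ e') :
    dim k E + 2 ≤ n ∧ (dim k E + 2 = n → bnum (replicate (dim k E) (mx1 k s)) ≤ e * e') := by
  let A := MvPolynomial (Fin n) k ⧸ Ideal.span {f}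
  have : (Ideal.span {f}).IsPrime := (Ideal.span_singleton_prime hf.ne_zero).2 hf
  let F := FractionRing A
  let t : Fin n → F := fun i => algebraMap A F (Ideal.Quotient.mk _ (X i))
  have e1 : aeval (R := k) (fun i : Fin n => (Ideal.Quotient.mk _ (X i) : A)) =
      Ideal.Quotient.mkₐ k _ := by
    ext1 i
    exact aeval_X _ _
  have ht : adjoin k (range t) = ⊤ :=
    Brg.Hyp0.adjoin_top_of_frac _ (e1 ▸ Ideal.Quotient.mkₐ_surjective k _)
  have := eft_of_top ht
  have h3 : ∀ q : MvPolynomial (Fin n) k, aeval t q = 0 ↔ f ∣ q := fun q => by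
    refine (Eq.congr_left (aeval_algebraMap_apply F _ q)).trans ?_
    rw [map_eq_zero_iff _ (IsFractionRing.injective _ F), e1,
      Ideal.Quotient.mkₐ_eq_mk, Ideal.Quotient.eq_zero_iff_mem, Ideal.mem_span_singleton]
  have h4 := bez t hs (fun q hq => by
    obtain ⟨r, rfl⟩ := (h3 q).1 hq
    rw [map_mul, h0, zero_mul]) (mt (h3 c).1 h1) h2 he
  have h5 := bez1 ht hf.ne_zero ((h3 f).2 dvd_rfl) he'
  refine ⟨by omega, fun hd => (h4.2 (by omega)).trans ?_⟩
  rw [show dim k E + 1 = dim k F by omega]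
  exact mul_le_mul_of_nonneg_left (h5.2 (by omega)) (Nat.cast_nonneg e)

end Crest.Agent.X262.Lin62
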