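import Crest.Agent.X262.Lin62.Tri

/-!
# Row 262, LIN (helper62), part 3: the cone of the lines through a point of a smooth cubic fourfold

For a point `x = (1 : ⋯)` of the cubic the directions `y = (0 : 1 : ⋯)` tangent at `x` are
parametrised by `pv`; the lines through `x` are cut by a quadric `Qt` and a cubic `Ct`.
* `not_dvd_Ct` : they have no common factor;
* `eckardt`    : the quadric is not zero at the generic point of a line.
-/

set_option autoImplicit false
set_option linter.unusedSectionVars false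

open MvPolynomial Finset

noncomputable section

namespace Crest.Agent.X262.Lin62

variable {k R : Type} [Field k] [Field R] [Algebra ℂ k] [Algebra ℂ R]
  {G : MvPolynomial (Fin 6) ℂ}

/-- the gradient -/
def gm (G : MvPolynomial (Fin 6) ℂ) (x : Fin 6 → R) (i : Fin 6) : R := tri G x x (Pi.single i 1)

theorem tri_gm (x y : Fin 6 → R) : tri G x x y = ∑ i, gm G x i * y i := tri_eq_sum x x y

/-- generators of the hyperplane `γ = 0` -/
def ee (γ : Fin 6 → R) (J i : Fin 6) : Fin 6 → R := Pi.single i 1 - (γ i / γ J) • Pi.single J 1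

/-- the free coordinates -/
def sg (j : Fin 4) (r : Fin 3) : Fin 6 := (j.succAbove r).succ.succ

/-- the tangent directions -/
def pv (γ : Fin 6 → R) (j : Fin 4) (w : Fin 3 → R) : Fin 6 → R :=
  ee γ j.succ.succ 1 + ∑ r, w r • ee γ j.succ.succ (sg j r)

/-- the generic tangent direction -/
def qv (γ : Fin 6 → k) (j : Fin 4) (i : Fin 6) : MvPolynomial (Fin 3) k :=
  C (ee γ j.succ.succ 1 i) + ∑ r, X r * C (ee γ j.succ.succ (sg j r) i)

/-- the quadric -/
def Qt (G : MvPolynomial (Fin 6) ℂ) (x : Fin 6 → k) (j : Fin 4) : MvPolynomial (Fin 3) k :=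
  tri G (qv (gm G x) j) (qv (gm G x) j) fun i => C (x i)

/-- the cubic -/
def Ct (G : MvPolynomial (Fin 6) ℂ) (x : Fin 6 → k) (j : Fin 4) : MvPolynomial (Fin 3) k :=
  tri G (qv (gm G x) j) (qv (gm G x) j) (qv (gm G x) j)

theorem tri_ee {x : Fin 6 → R} {J : Fin 6} (h : gm G x J ≠ 0) (i : Fin 6) :
    tri G x x (ee (gm G x) J i) = 0 := by
  rw [ee, sub_eq_add_neg, ← neg_smul, tri_add3, tri_smul3]
  change gm G x i + _ * gm G x J = 0
  field_simp
  ring

theorem tri_pv {x : Fin 6 → R} {j : Fin 4} (h : gm G x j.succ.succ ≠ 0) (w : Fin 3 → R) :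
    tri G x x (pv (gm G x) j w) = 0 := by
  simp only [pv, Fin.sum_univ_three, tri_add3, tri_smul3, tri_ee h, mul_zero, add_zero]

theorem eq_pv {γ y : Fin 6 → R} {j : Fin 4} (h : γ j.succ.succ ≠ 0) (h0 : y 0 = 0) (h1 : y 1 = 1)
    (h2 : ∑ i, γ i * y i = 0) : y = pv γ j fun r => y (sg j r) := by
  have h3 : ∑ i, y i • ee γ j.succ.succ i = y := by
    simp only [ee, smul_sub, sum_sub_distrib, smul_smul, ← sum_smul, mul_comm (y _),
      div_mul_eq_mul_div, ← sum_div, h2, zero_div, zero_smul, sub_zero]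
    ext i
    simp [Pi.single_apply]
  have h4 : ee γ j.succ.succ j.succ.succ = 0 := by rw [ee, div_self h, one_smul, sub_self]
  conv_lhs => rw [← h3, Fin.sum_univ_succ, Fin.sum_univ_succ, Fin.sum_univ_succAbove _ j]
  rw [h0, h4, zero_smul, smul_zero, zero_add, zero_add, Fin.succ_zero_eq_one, h1, one_smul]
  rfl

theorem deg_tri {a b c : Fin 6 → MvPolynomial (Fin 3) k} {l m n : ℕ}
    (ha : ∀ i, (a i).totalDegree ≤ l) (hb : ∀ i, (b i).totalDegree ≤ m)
    (hc : ∀ i, (c i).totalDegree ≤ n) : (tri G a b c).totalDegree ≤ l + m + n := by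
  refine totalDegree_finsetSum_le fun i _ => totalDegree_finsetSum_le fun j _ =>
    totalDegree_finsetSum_le fun r _ => (totalDegree_mul _ _).trans ?_
  rw [MvPolynomial.algebraMap_apply, totalDegree_C, zero_add]
  exact (totalDegree_mul _ _).trans (add_le_add
    ((totalDegree_mul _ _).trans (add_le_add (ha i) (hb j))) (hc r))

theorem deg_qv (γ : Fin 6 → k) (j : Fin 4) (i : Fin 6) : (qv γ j i).totalDegree ≤ 1 := by
  refine (totalDegree_add _ _).trans (max_le (by simp) (totalDegree_finsetSum_le fun r _ =>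
    (totalDegree_mul _ _).trans (by simp)))

theorem deg_Qt (x : Fin 6 → k) (j : Fin 4) : (Qt G x j).totalDegree ≤ 2 :=
  deg_tri (l := 1) (m := 1) (n := 0) (deg_qv _ j) (deg_qv _ j) fun i => by simp

theorem deg_Ct (x : Fin 6 → k) (j : Fin 4) : (Ct G x j).totalDegree ≤ 3 :=
  deg_tri (l := 1) (m := 1) (n := 1) (deg_qv _ j) (deg_qv _ j) (deg_qv _ j)

section Map

variable [Algebra k R] [IsScalarTower ℂ k R]

theorem map_gm (x : Fin 6 → k) (i : Fin 6) :
    algebraMap k R (gm G x i) = gm G (fun i => algebraMap k R (x i)) i := by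
  refine (map_tri (IsScalarTower.toAlgHom ℂ k R) _ _ _).trans ?_
  congr 1
  funext l
  simp [Pi.single_apply]

theorem aeval_qv (x : Fin 6 → k) (j : Fin 4) (w : Fin 3 → R) :
    (fun i => (aeval w : _ →ₐ[k] R).restrictScalars ℂ (qv (gm G x) j i)) =
      pv (gm G fun i => algebraMap k R (x i)) j w := by
  funext i
  simp [qv, pv, ee, ← map_gm, Pi.single_apply, apply_ite (algebraMap k R)]

theorem aeval_Qt (x : Fin 6 → k) (j : Fin 4) (w : Fin 3 → R) : aeval w (Qt G x j) =
    tri G (pv (gm G fun i => algebraMap k R (x i)) j w)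
      (pv (gm G fun i => algebraMap k R (x i)) j w) fun i => algebraMap k R (x i) := by
  refine (map_tri ((aeval w : _ →ₐ[k] R).restrictScalars ℂ) _ _ _).trans ?_
  rw [aeval_qv]
  simp

theorem aeval_Ct (x : Fin 6 → k) (j : Fin 4) (w : Fin 3 → R) : aeval w (Ct G x j) =
    tri G (pv (gm G fun i => algebraMap k R (x i)) j w)
      (pv (gm G fun i => algebraMap k R (x i)) j w)
      (pv (gm G fun i => algebraMap k R (x i)) j w) := by
  refine (map_tri ((aeval w : _ →ₐ[k] R).restrictScalars ℂ) _ _ _).trans ?_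
  rw [aeval_qv]

end Map

/-- the cubic does not contain an affine hyperplane of an affine hyperplane -/
theorem no_aff (hs : SmF G) [IsAlgClosed R] {b : Fin 5 → Fin 6 → R} (hb : LinearIndependent R b)
    (β : Fin 5 → R) {y1 : Fin 5 → R} (h0 : y1 0 = 1) (h1 : ∑ i, β i * y1 i = 0)
    (h : ∀ y : Fin 5 → R, y 0 = 1 → ∑ i, β i * y i = 0 →
      tri G (∑ i, y i • b i) (∑ i, y i • b i) (∑ i, y i • b i) = 0) : False := by
  have : CharZero R := charZero_of_injective_algebraMap (algebraMap ℂ R).injective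
  let φ := Fintype.linearCombination R b
  let ψ := Fintype.linearCombination R β
  have hψ : ∀ y, ψ y = ∑ i, β i * y i := fun y => by
    simp [ψ, Fintype.linearCombination_apply, mul_comm]
  refine no_lin hs ((LinearMap.ker ψ).map φ) ?_ ?_
  · have h2 := ψ.finrank_range_add_finrank_ker
    have h3 := (LinearMap.range ψ).finrank_le
    rw [← (Submodule.equivMapOfInjective φ hb.fintypeLinearCombination_injective _).finrank_eq]
    simp only [Module.finrank_self, Module.finrank_fintype_fun_eq_card, Fintype.card_fin] at h2 h3 ⊢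
    omega
  · rintro _ ⟨y, hy, rfl⟩
    have h2 := coeffs_zero (a := tri G (φ (y - y 0 • y1)) (φ (y - y 0 • y1)) (φ (y - y 0 • y1)))
      fun t => by
        rw [← tri_cube (v := φ y1), ← map_smul, ← map_add]
        refine h _ (by simp [h0]) ?_
        rw [← hψ, map_add, map_smul, map_sub, map_smul, hψ y1, h1, LinearMap.mem_ker.1 hy]
        simp
    have h3 : φ y = y 0 • φ y1 + φ (y - y 0 • y1) := by simp
    rw [h3, tri_cube, h2.1, h2.2.1, h2.2.2.1, h2.2.2.2]
    simp

theorem aff {l : MvPolynomial (Fin 3) k} (h : l.totalDegree ≤ 1) :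
    ∃ (a : k) (b : Fin 3 → k), l = C a + ∑ i, b i • X i := by
  obtain ⟨b, hb⟩ := (Submodule.mem_span_range_iff_exists_fun k).1
    ((homogeneousSubmodule_one_eq_span_X (σ := Fin 3) (R := k)).le (homogeneousComponent_mem 1 l))
  refine ⟨coeff 0 l, b, ?_⟩
  rw [hb, ← homogeneousComponent_zero, ← sum_range_one fun i => homogeneousComponent i l,
    ← sum_range_succ fun i => homogeneousComponent i l]
  conv_lhs => rw [← sum_homogeneousComponent l]
  exact sum_subset (range_subset_range.2 (by omega)) fun i _ hi =>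
    homogeneousComponent_eq_zero _ _ (by simpa using hi)

theorem indep {γ x : Fin 6 → R} (j : Fin 4) (h0 : x 0 = 1) : LinearIndependent R
    (Fin.cons (ee γ j.succ.succ 1) (Fin.cons x fun r => ee γ j.succ.succ (sg j r)) :
      Fin 5 → Fin 6 → R) := by
  rw [Fintype.linearIndependent_iff]
  intro g hg
  rw [Fin.sum_univ_succ, Fin.sum_univ_succ] at hg
  have h1 : g (Fin.succ 0) = 0 := by
    simpa [ee, sg, h0, Pi.single_apply, (Fin.succ_ne_zero _).symm] using congrFun hg 0
  have h2 : ∀ i : Fin 4, (1 : Fin 6) ≠ i.succ.succ := fun i =>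
    (Fin.succ_injective _).ne (Fin.succ_ne_zero i).symm
  refine Fin.cases ?_ (Fin.cases h1 fun r => ?_)
  · have := congrFun hg 1
    rw [h1] at this
    simpa [ee, sg, Pi.single_apply, h2] using this
  · have := congrFun hg (sg j r)
    rw [h1] at this
    simpa [ee, sg, Pi.single_apply, (h2 _).symm] using this

/-- the quadric and the cubic have no common factor -/
theorem not_dvd_Ct (hs : SmF G) {x : Fin 6 → k} {j : Fin 4} (h0 : x 0 = 1)
    (hx : tri G x x x = 0) (hj : gm G x j.succ.succ ≠ 0) (hQ : Qt G x j ≠ 0)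
    {f : MvPolynomial (Fin 3) k} (hf : Prime f) (h1 : f ∣ Qt G x j) : ¬ f ∣ Ct G x j := by
  have : CharZero k := charZero_of_injective_algebraMap (algebraMap ℂ k).injective
  rintro ⟨l, hl⟩
  obtain ⟨r, hr⟩ := h1
  have key : ∃ (α a : k) (b : Fin 3 → k), (α ≠ 0 ∨ ∃ i, b i ≠ 0) ∧
      ∀ (c : AlgebraicClosure k) (w : Fin 3 → AlgebraicClosure k),
        algebraMap k _ α * c + aeval w (C a + ∑ i, b i • X i) = 0 →
          3 * c * aeval w (Qt G x j) + aeval w (Ct G x j) = 0 := by
    by_cases hd : f.totalDegree ≤ 1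
    · obtain ⟨a, b, rfl⟩ := aff hd
      refine ⟨0, a, b, Or.inr (by_contra fun h => hf.not_isUnit ?_), fun c w h => ?_⟩
      · have h2 : ∀ i, b i = 0 := fun i => not_not.1 (not_exists.1 h i)
        have h3 := hf.ne_zero
        simp only [h2, zero_smul, sum_const_zero, add_zero] at h3 ⊢
        exact (Ne.isUnit (C_ne_zero.1 h3)).map C
      · rw [map_zero, zero_mul, zero_add] at h
        rw [hr, hl, map_mul, map_mul, h]
        simp
    · have h2 : r ≠ 0 := fun h => hQ (by rw [hr, h, mul_zero])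
      have h3 := deg_Qt (G := G) x j
      rw [hr, totalDegree_mul_of_isDomain hf.ne_zero h2] at h3
      have h4 := totalDegree_eq_zero_iff_eq_C.1 (show r.totalDegree = 0 by omega)
      have h5 : l.totalDegree ≤ 1 := by
        by_cases h : l = 0
        · simp [h]
        · have h3 := deg_Ct (G := G) x j
          rw [hl, totalDegree_mul_of_isDomain hf.ne_zero h] at h3
          omega
      obtain ⟨a, b, rfl⟩ := aff h5
      refine ⟨3 * coeff 0 r, a, b, Or.inl (mul_ne_zero three_ne_zero fun h => h2 (by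
        rw [h4, h, map_zero])), fun c w h => ?_⟩
      rw [hr, hl, h4, map_mul, map_mul, aeval_C]
      rw [map_mul, map_ofNat] at h
      linear_combination aeval w f * h
  obtain ⟨α, a, b, h2, h3⟩ := key
  let Ω := AlgebraicClosure k
  let x' : Fin 6 → Ω := fun i => algebraMap k Ω (x i)
  let β : Fin 5 → Ω := fun i => algebraMap k Ω ((Fin.cons a (Fin.cons α b) : Fin 5 → k) i)
  obtain ⟨i, hi⟩ : ∃ i : Fin 4, β i.succ ≠ 0 := by
    rcases h2 with h | ⟨i, h⟩
    · exact ⟨0, (map_ne_zero _).2 h⟩
    · exact ⟨i.succ, (map_ne_zero _).2 h⟩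
  refine no_aff hs (indep (γ := gm G x') (x := x') j (by simp [x', h0])) β
    (y1 := Fin.cons 1 (Pi.single i (-β 0 / β i.succ))) rfl ?_ fun y hy hβ => ?_
  · rw [Fin.sum_univ_succ, sum_eq_single i (by simp +contextual) (by simp)]
    simp only [Fin.cons_zero, Fin.cons_succ, Pi.single_eq_same]
    rw [mul_div_cancel₀ _ hi, mul_one, add_neg_cancel]
  · have h4 : ∑ i, y i • (Fin.cons (ee (gm G x') j.succ.succ 1) (Fin.cons x' fun r =>
        ee (gm G x') j.succ.succ (sg j r)) : Fin 5 → Fin 6 → Ω) i =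
        y (Fin.succ 0) • x' + pv (gm G x') j fun r => y r.succ.succ := by
      rw [Fin.sum_univ_succ, Fin.sum_univ_succ, hy, one_smul, pv, add_left_comm]
      rfl
    have h5 : tri G x' x' x' = 0 :=
      (map_tri (IsScalarTower.toAlgHom ℂ k Ω) x x x).symm.trans (by rw [hx, map_zero])
    have h6 := h3 (y (Fin.succ 0)) (fun r => y r.succ.succ) (by
      rw [Fin.sum_univ_succ, Fin.sum_univ_succ, hy] at hβ
      simp only [β, Fin.cons_zero, Fin.cons_succ] at hβ
      simp only [map_add, map_sum, map_smul, aeval_C, aeval_X]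
      simp only [Algebra.smul_def]
      linear_combination hβ)
    rw [aeval_Qt, aeval_Ct] at h6
    rw [h4, tri_cube, h5, tri_pv (by rw [← map_gm]; exact (map_ne_zero _).2 hj)]
    linear_combination h6

/-- the generic point of a line is not an Eckardt point -/
theorem eckardt (hs : SmF G) [Algebra k R] [IsScalarTower ℂ k R] {p q : Fin 6 → k}
    (hp : p 0 = 1) (hq0 : q 0 = 0) (hq1 : q 1 = 1) {z : R} (hz : Transcendental k z)
    {x v : Fin 6 → R} (hx : x = z • v + fun i => algebraMap k R (p i))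
    (hv : v = fun i => algebraMap k R (q i)) (h1 : tri G x x x = 0) (h2 : tri G x x v = 0)
    (h : ∀ y : Fin 6 → R, y 0 = 0 → y 1 = 1 → tri G x x y = 0 → tri G y y x = 0) : False := by
  have : CharZero R := charZero_of_injective_algebraMap (algebraMap ℂ R).injective
  have x0 : x 0 = 1 := by simp [hx, hv, hp, hq0]
  have v0 : v 0 = 0 := by simp [hv, hq0]
  have v1 : v 1 = 1 := by simp [hv, hq1]
  have h3 : ∀ u, tri G x x u = 0 → tri G x v u = 0 := fun u hu => by
    obtain ⟨c, d, u', rfl, h4, h5⟩ : ∃ (c d : R) (u' : Fin 6 → R), u = c • x + d • v + u' ∧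
        u' 0 = 0 ∧ u' 1 = 0 := ⟨u 0, u 1 - u 0 * x 1, u - (u 0 • x + (u 1 - u 0 * x 1) • v),
          by simp, by simp [x0, v0], by simp [v1]⟩
    have h6 := h v v0 v1 h2
    rw [tri_add3, tri_add3, tri_smul3, tri_smul3, h1, h2] at hu
    have h7 : ∀ t : R, tri G (t • u' + v) (t • u' + v) x = 0 := fun t =>
      h _ (by simp [h4, v0]) (by simp [h5, v1]) (by
        rw [tri_add3, tri_smul3, h2]
        linear_combination t * hu)
    have h8 := h7 1
    have h9 := h7 (-1)
    simp only [tri_add1, tri_add2, tri_smul1, tri_smul2, tri_12 v u' x] at h8 h9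
    rw [tri_add3, tri_add3, tri_smul3, tri_smul3, tri_23 x v x, h2, tri_13 x v v, h6, tri_13]
    linear_combination (h8 - h9) / 4
  have hB : ∀ i, algebraMap k R (tri G p q (Pi.single i 1)) =
      tri G (fun i => algebraMap k R (p i)) v (Pi.single i 1) := fun i => by
    refine (map_tri (IsScalarTower.toAlgHom ℂ k R) _ _ _).trans ?_
    rw [hv]
    congr 1
    funext l
    simp [Pi.single_apply]
  have h4 : ∀ i, gm G x i = z ^ 2 * algebraMap k R (gm G q i) +
      2 * z * algebraMap k R (tri G p q (Pi.single i 1)) + algebraMap k R (gm G p i) := fun i => by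
    rw [hB, map_gm, map_gm, ← hv, gm, gm, gm, hx]
    simp only [tri_add1, tri_add2, tri_smul1, tri_smul2, tri_12 v fun i => algebraMap k R (p i)]
    ring
  have h5 : ∀ i, tri G x v (Pi.single i 1) = z * algebraMap k R (gm G q i) +
      algebraMap k R (tri G p q (Pi.single i 1)) := fun i => by
    rw [hB, map_gm, ← hv, gm, hx, tri_add1, tri_smul1]
  have h6 : ∀ i j, tri G p q (Pi.single j 1) * gm G q i = tri G p q (Pi.single i 1) * gm G q j ∧
      gm G p j * gm G q i = gm G p i * gm G q j := fun i j => by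
    have h7 := h3 (gm G x j • Pi.single i 1 + (-gm G x i) • Pi.single j 1) (by
      rw [tri_add3, tri_smul3, tri_smul3]
      change _ * gm G x i + _ * gm G x j = 0
      ring)
    rw [tri_add3, tri_smul3, tri_smul3, h4, h4, h5, h5] at h7
    have h8 := transcendental_iff.1 hz (Polynomial.C (tri G p q (Pi.single j 1) * gm G q i -
      tri G p q (Pi.single i 1) * gm G q j) * Polynomial.X ^ 2 + Polynomial.C
      (gm G p j * gm G q i - gm G p i * gm G q j) * Polynomial.X + Polynomial.C
      (gm G p j * tri G p q (Pi.single i 1) - gm G p i * tri G p q (Pi.single j 1))) (by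
        simp only [map_add, Polynomial.aeval_mul, Polynomial.aeval_C, Polynomial.aeval_X,
          map_pow]
        simp only [map_sub, map_mul]
        linear_combination h7)
    have h9 := congrArg (Polynomial.coeff · 2) h8
    have h10 := congrArg (Polynomial.coeff · 1) h8
    simp only [Polynomial.coeff_add, Polynomial.coeff_C_mul, Polynomial.coeff_X_pow,
      Polynomial.coeff_X, Polynomial.coeff_C] at h9 h10
    exact ⟨by simpa [sub_eq_zero] using h9, by simpa [sub_eq_zero] using h10⟩
  obtain ⟨i, hi⟩ : ∃ i, gm G q i ≠ 0 := by_contra fun h => by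
    have h7 := hs k q fun u => by
      rw [tri_gm]
      exact sum_eq_zero fun i _ => by rw [not_not.1 (not_exists.1 h i), zero_mul]
    simp [h7] at hq1
  let Ω := AlgebraicClosure k
  let φ := IsScalarTower.toAlgHom ℂ k Ω
  obtain ⟨t, ht⟩ := IsAlgClosed.exists_aeval_eq_zero Ω (Polynomial.C (gm G q i) * Polynomial.X ^ 2 +
    Polynomial.C (2 * tri G p q (Pi.single i 1)) * Polynomial.X + Polynomial.C (gm G p i))
    (by rw [Polynomial.degree_quadratic hi]; simp)
  simp only [map_add, map_mul, Polynomial.aeval_C, Polynomial.aeval_X, map_pow, map_ofNat] at ht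
  have h7 := hs Ω (t • (fun i => φ (q i)) + fun i => φ (p i)) fun u => by
    rw [tri_gm]
    refine sum_eq_zero fun j _ => mul_eq_zero_of_left ?_ _
    have e : ∀ a b : Fin 6 → k, tri G (fun i => φ (a i)) (fun i => φ (b i)) (Pi.single j 1) =
        algebraMap k Ω (tri G a b (Pi.single j 1)) := fun a b => by
      refine Eq.trans ?_ (map_tri φ _ _ _).symm
      congr 1
      funext l
      simp [Pi.single_apply]
    simp only [gm, tri_add1, tri_add2, tri_smul1, tri_smul2, e, tri_12 q p]
    refine mul_left_cancel₀ ((map_ne_zero (algebraMap k Ω)).2 hi) ?_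
    have e1 := congrArg (algebraMap k Ω) (h6 i j).1
    have e2 := congrArg (algebraMap k Ω) (h6 i j).2
    simp only [map_mul, gm] at e1 e2 ht ⊢
    linear_combination 2 * t * e1 + e2 + algebraMap k Ω (tri G q q (Pi.single j 1)) * ht
  simpa [hp, hq0] using congrFun h7 0

end Crest.Agent.X262.Lin62
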