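import Crest.Agent.X262.Lin62.Bez
import Crest.Agent.X262.Lin62.Cone
import Crest.Agent.X262.Top.Defs

/-!
# Row 262, LIN (helper62), part 4: the statement `Top.LinStmt`
-/

set_option autoImplicit false
set_option linter.unusedSectionVars false

noncomputable section

namespace Crest.Agent.X262.Lin62

open Crest.Agent.X277 Crest.Agent.X277.BD Crest.Agent.X262.Top Crest.AlgGeometry MvPolynomial
open List (replicate)
open IntermediateField (adjoin)
open Set (range)

theorem exists_prime_ker {R S : Type} [CommRing R] [IsDomain R] [UniqueFactorizationMonoid R]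
    [Field S] (χ : R →+* S) {a : R} (h0 : a ≠ 0) (h : χ a = 0) :
    ∃ π : R, Prime π ∧ π ∣ a ∧ χ π = 0 := by
  induction a using UniqueFactorizationMonoid.induction_on_prime with
  | h₁ => exact absurd rfl h0
  | h₂ u hu => exact absurd h (hu.map χ).ne_zero
  | h₃ a π ha hπ ih =>
    rcases mul_eq_zero.1 ((map_mul χ π a).symm.trans h) with h | h
    · exact ⟨π, hπ, dvd_mul_right _ _, h⟩
    · obtain ⟨π', h1, h2, h3⟩ := ih ha h
      exact ⟨π', h1, h2.mul_left _, h3⟩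

theorem pos_mx1 {k E : Type} [Field k] [Field E] [Algebra k E] [CharZero k]
    [Algebra.EssFiniteType k E] {n : ℕ} {s : Fin n → E} (hs : adjoin k (range s) = ⊤) :
    0 < bnum (replicate (dim k E) (mx1 k s)) := by
  have h : (mx1 k s).sf = ⊤ := top_unique (hs ▸ IntermediateField.adjoin_le_iff.2 (by
    rintro _ ⟨i, rfl⟩
    simpa using div_mem_sf (mem_mx1 s i) (nonneg_iff.1 (mx1_nonneg s))))
  exact bnum_pos (by simp) (all_rp (N := fun x => Nef x ∧ Big x)
    ⟨(free_mx1 s).nef, (free_mx1 s).big (h ▸ inferInstance)⟩ _)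

attribute [local irreducible] mxf

/-- the lines through a point of the cubic -/
theorem cone {G : MvPolynomial (Fin 6) ℂ} (hs : SmF G) {k K : Type} [Field k] [Field K]
    [Algebra ℂ k] [Algebra ℂ K] [Algebra k K] [IsScalarTower ℂ k K] [CharZero k]
    [Algebra.EssFiniteType k K] {y : Fin 6 → k} {x v : Fin 6 → K}
    (hx : x = fun i => algebraMap k K (y i)) (y0 : y 0 = 1) (v0 : v 0 = 0) (v1 : v 1 = 1)
    (h1 : tri G x x x = 0) (h2 : tri G x x v = 0) (h3 : tri G v v x = 0) (h4 : tri G v v v = 0)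
    (h5 : ¬ ∀ u : Fin 6 → K, u 0 = 0 → u 1 = 1 → tri G x x u = 0 → tri G u u x = 0) :
    ∃ E : IntermediateField k K, (∀ i, v i ∈ E) ∧ dim k E ≤ 1 ∧ (dim k E = 1 → ∃ a : BD k E,
      0 < bnum [a] ∧ bnum [a] ≤ 6 ∧
        mxf k (fun ij : Fin 6 × Fin 6 => x ij.1 * v ij.2 - x ij.2 * v ij.1) = pb E.val a) := by
  have x0 : x 0 = 1 := by simp [hx, y0]
  obtain ⟨j, hj⟩ : ∃ j : Fin 4, gm G x j.succ.succ ≠ 0 := by_contra fun h => by
    have h6 : ∀ j : Fin 4, gm G x j.succ.succ = 0 := fun j => not_not.1 (not_exists.1 h j)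
    rw [tri_gm, Fin.sum_univ_succ, Fin.sum_univ_succ] at h1 h2
    have h7 : gm G x (Fin.succ 0) = 0 := by simpa [h6, v0, v1] using h2
    have h8 : gm G x 0 = 0 := by simpa only [h6, h7, x0, zero_mul, Finset.sum_const_zero,
      add_zero, mul_one] using h1
    have h9 : ∀ i, gm G x i = 0 := Fin.cases h8 (Fin.cases h7 h6)
    have h10 := hs K x fun u => by simp [tri_gm, h9]
    simp [h10] at x0
  have hj' : gm G y j.succ.succ ≠ 0 := fun h => hj (by rw [hx, ← map_gm, h, map_zero])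
  have hv := eq_pv hj v0 v1 (by rwa [← tri_gm])
  set w : Fin 3 → K := fun r => v (sg j r) with hw
  have hQ : Qt G y j ≠ 0 := fun h => h5 fun u u0 u1 hu => by
    have h6 := aeval_Qt (G := G) y j fun r => u (sg j r)
    rw [h, map_zero, ← hx, ← eq_pv hj u0 u1 (by rwa [← tri_gm])] at h6
    exact h6.symm
  have hvq : ∀ i, v i = aeval w (qv (gm G y) j i) := fun i => by
    rw [hv, hx, ← aeval_qv]
    rfl
  let E := adjoin k (range w)
  let u : Fin 3 → E := fun r => ⟨w r, IntermediateField.subset_adjoin _ _ ⟨r, rfl⟩⟩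
  have hu : adjoin k (range u) = ⊤ := adjoin_sub w
  have he : ∀ c : MvPolynomial (Fin 3) k, (aeval u c : E) = aeval w c := fun c =>
    (aeval_algebraMap_apply K u c).symm
  obtain ⟨f, hf, h6, h7⟩ := exists_prime_ker (aeval u : _ →ₐ[k] E).toRingHom hQ
    (Subtype.ext ((he _).trans (by rw [aeval_Qt, ← hx, ← hv, h3]; rfl)))
  have h8 := bez2 hu hf h7 (not_dvd_Ct hs y0 ((map_eq_zero_iff _ (algebraMap k K).injective).1
    ((map_tri (IsScalarTower.toAlgHom ℂ k K) y y y).trans (hx ▸ h1))) hj' hQ hf h6)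
    (Subtype.ext ((he _).trans (by rw [aeval_Ct, ← hx, ← hv, h4]; rfl))) (deg_Ct y j)
    ((totalDegree_le_of_dvd_of_isDomain h6 hQ).trans (deg_Qt y j))
  refine ⟨E, fun i => hvq i ▸ he _ ▸ (aeval u _ : E).2, by omega, fun hd => ⟨mx1 k u, ?_, ?_, ?_⟩⟩
  · simpa [hd] using pos_mx1 hu
  · simpa [hd] using h8.2 (by omega)
  · have h9 : ∀ i l, x i * v l ∈ (mx1 k w).Sec := fun i l => by
      rw [hx, ← Algebra.smul_def, hvq]
      exact Submodule.smul_mem _ _ (one_nsmul (mx1 k w) ▸ aeval_mem w (deg_qv _ j l))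
    obtain ⟨s, hs⟩ : ∃ s : Fin 6 × Fin 6 → K,
      s = fun ij => x ij.1 * v ij.2 - x ij.2 * v ij.1 := ⟨_, rfl⟩
    have h10 : ∀ i, s (0, i) = v i := fun i => by simp [hs, x0, v0]
    have h11 : ∃ i, s i ≠ 0 := ⟨(0, 1), by simp [h10, v1]⟩
    have h12 : ∀ ij, s ij ∈ (mx1 k w).Sec := fun ij => hs ▸ sub_mem (h9 _ _) (h9 _ _)
    have h13 : ∀ i, v i ∈ (mxf k s).Sec := fun i => h10 i ▸ mem_Sec_mxf s (0, i)
    rw [pb_mx1, ← hs]
    have h14 := h13 1
    rw [v1] at h14
    exact le_antisymm (mxf_le h11 h12)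
      (mxf_le ⟨0, one_ne_zero⟩ (Fin.cases h14 fun r => h13 (sg j r)))

variable {G : MvPolynomial (Fin 6) ℂ} {F L : Type} [Field F] [Algebra ℂ F] [Field L] [Algebra ℂ L]
  (Λ : Lines G F L)

theorem on_line {K : Type} [Field K] [Algebra ℂ K] (φ : L →ₐ[ℂ] K) (s t : K) :
    aeval (fun i => s * φ (Λ.p i) + t * φ (Λ.q i)) G = 0 := by
  have h1 : aevalTower (φ.comp (aeval Λ.a)) ![s, t] (lineSubst G) = 0 := by
    change eval₂ _ _ _ = 0
    rw [eval₂_eq]
    refine Finset.sum_eq_zero fun d _ => mul_eq_zero_of_left ?_ _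
    change φ (aeval Λ.a _) = 0
    rw [Λ.on _ (Ideal.subset_span ⟨d, rfl⟩), map_zero]
  rw [lineSubst, ← AlgHom.comp_apply, comp_aeval] at h1
  rw [← h1]
  congr 2
  funext i
  fin_cases i <;> simp [linePoint, Lines.p, Lines.q]

theorem exists_theta : ∃ θ : L, θ ^ 2 ∈ adjoin ℂ (range Λ.a) ∧
    ∀ y : L, ∃ a ∈ adjoin ℂ (range Λ.a), ∃ b ∈ adjoin ℂ (range Λ.a), y = a + b * θ := by
  have : CharZero L := charZero_of_injective_algebraMap (algebraMap ℂ L).injective
  by_cases h : ∀ y, Λ.τ y = y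
  · exact ⟨0, by simp, fun y => ⟨y, (Λ.fix y).1 (h y), 0, zero_mem _, by simp⟩⟩
  · obtain ⟨y0, h⟩ := not_forall.1 h
    have h0 : y0 - Λ.τ y0 ≠ 0 := sub_ne_zero.2 (Ne.symm h)
    have h1 : Λ.τ y0 - y0 ≠ 0 := sub_ne_zero.2 h
    refine ⟨y0 - Λ.τ y0, (Λ.fix _).1 ?_, fun y => ⟨(y + Λ.τ y) / 2, (Λ.fix _).1 ?_,
      (y - Λ.τ y) / (2 * (y0 - Λ.τ y0)), (Λ.fix _).1 ?_, ?_⟩⟩
    · rw [map_pow, map_sub, Λ.inv]
      ring
    · rw [map_div₀, map_add, Λ.inv, map_ofNat, add_comm]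
    · rw [map_div₀, map_mul, map_sub, map_sub, Λ.inv, Λ.inv, map_ofNat]
      field_simp
      ring
    · field_simp
      ring

theorem finrank_le {k : Type} [Field k] [Algebra ℂ k] [Algebra k (RatFunc L)]
    [IsScalarTower ℂ k (RatFunc L)] (E : IntermediateField k (RatFunc L))
    (hX : RatFunc.X ∈ E) (ha : ∀ i, RatFunc.C (Λ.a i) ∈ E) :
    Module.Finite E (RatFunc L) ∧ Module.finrank E (RatFunc L) ≤ 2 := by
  obtain ⟨θ, h1, h2⟩ := exists_theta Λ
  have h3 : ∀ y ∈ adjoin ℂ (range Λ.a), RatFunc.C y ∈ E := fun y hy =>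
    (IntermediateField.adjoin_le_iff (T := (E.restrictScalars ℂ).comap
      (IsScalarTower.toAlgHom ℂ L (RatFunc L)))).2 (Set.range_subset_iff.2 ha) hy
  have h4 : adjoin E {RatFunc.C θ} = ⊤ := by
    have h5 : ∀ z ∈ E, z ∈ adjoin E {RatFunc.C θ} := fun z hz =>
      (adjoin E {RatFunc.C θ}).algebraMap_mem ⟨z, hz⟩
    have h6 : ∀ p : Polynomial L, algebraMap _ (RatFunc L) p ∈ adjoin E {RatFunc.C θ} := fun p => by
      induction p using Polynomial.induction_on with
      | C y =>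
        obtain ⟨a, ha, b, hb, rfl⟩ := h2 y
        rw [RatFunc.algebraMap_C, map_add, map_mul]
        exact add_mem (h5 _ (h3 a ha)) (mul_mem (h5 _ (h3 b hb))
          (IntermediateField.mem_adjoin_simple_self _ _))
      | add p q hp hq => exact map_add (algebraMap _ (RatFunc L)) p q ▸ add_mem hp hq
      | monomial n y h =>
        rw [pow_succ, ← mul_assoc, map_mul, RatFunc.algebraMap_X]
        exact mul_mem h (h5 _ hX)
    refine top_unique fun z _ => ?_
    induction z using RatFunc.induction_on with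
    | f p q _ => exact div_mem (h6 p) (h6 q)
  have h5 : Polynomial.aeval (RatFunc.C θ)
      (Polynomial.X ^ 2 - Polynomial.C (⟨_, h3 _ h1⟩ : E)) = 0 := by simp
  have h6 := Polynomial.monic_X_pow_sub_C (⟨_, h3 _ h1⟩ : E) two_ne_zero
  have h7 : IsIntegral E (RatFunc.C θ) := ⟨_, h6, h5⟩
  have h8 := IntermediateField.adjoin.finiteDimensional h7
  have h9 := IntermediateField.adjoin.finrank h7
  rw [h4] at h8 h9
  refine ⟨Module.Finite.equiv IntermediateField.topEquiv.toLinearEquiv, ?_⟩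
  rw [← IntermediateField.finrank_top', h9]
  exact (Polynomial.natDegree_le_natDegree (minpoly.min _ _ h6 h5)).trans
    Polynomial.natDegree_X_pow_sub_C.le

theorem linStmt : LinStmt := by
  intro G F L _ _ _ _ _ Λ hG
  have : CharZero L := charZero_of_injective_algebraMap (algebraMap ℂ L).injective
  have hs := smF hG.1 hG.2
  let φ := IsScalarTower.toAlgHom ℂ L (RatFunc L)
  set x := Λ.pt with hx
  let v : Fin 6 → RatFunc L := fun i => RatFunc.C (Λ.q i)
  have x0 : x 0 = 1 := by simp [hx, Lines.pt, Lines.p, Lines.q]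
  have x1 : x 1 = RatFunc.X := by simp [hx, Lines.pt, Lines.p, Lines.q]
  obtain ⟨h1, h2, h3, h4⟩ := coeffs_zero (a := tri G x x x) fun t => by
    rw [← tri_cube (v := v), ← aeval_eq hG.1, ← on_line Λ φ t (t * RatFunc.X + 1)]
    congr 2
    funext i
    change t * (RatFunc.C _ + _ * RatFunc.C _) + RatFunc.C _ = t * RatFunc.C _ + _ * RatFunc.C _
    ring
  let k := adjoin ℂ (range (Fin.tail x))
  let y : Fin 5 → k := fun i => ⟨x i.succ, IntermediateField.subset_adjoin _ _ ⟨i, rfl⟩⟩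
  have hy : adjoin ℂ (range y) = ⊤ := adjoin_sub _
  have hxy : x = fun i => algebraMap k _ ((Fin.cons 1 y : Fin 6 → k) i) :=
    funext (Fin.cases (x0.trans (map_one _).symm) fun _ => rfl)
  obtain ⟨E, hE, hd, hc⟩ := cone hs hxy rfl (v := v) (by simp [v, Lines.q]) (by simp [v, Lines.q])
    h1 h2 h3 h4 fun h => eckardt hs (p := Λ.p) (q := Λ.q) rfl rfl rfl RatFunc.transcendental_X
      (funext fun i => add_comm _ _) rfl h1 h2 h
  have hxE : ∀ i, x i ∈ E := fun i => hxy ▸ E.algebraMap_mem _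
  have hpE : ∀ i, RatFunc.C (Λ.p i) ∈ E := fun i => by
    have h := sub_mem (hxE i) (mul_mem (hxE 1) (hE i))
    rwa [x1, hx, Lines.pt, add_sub_cancel_right] at h
  obtain ⟨hfin, hr⟩ := finrank_le Λ E (x1 ▸ hxE 1) fun i => by
    fin_cases i
    exacts [hpE 2, hpE 3, hpE 4, hpE 5, hE 2, hE 3, hE 4, hE 5]
  have h5 : dim ℂ (RatFunc L) = 5 := by
    have := Algebra.EssFiniteType.of_comp ℂ L (RatFunc L)
    have h := trdeg_add_eq ℂ L (A := RatFunc L)
    rw [Λ.dim, trdeg_eq_dim, trdeg_eq_dim,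
      Loc.dim_rat RatFunc.transcendental_X RatFunc.adjoin_X] at h
    exact_mod_cast h.symm
  have hP := Brg.Cubic.prime_deh (n := 5) (by norm_num) (by norm_num) hG.1 hG.2
  have he : ∀ c : MvPolynomial (Fin 5) ℂ, aeval y c = 0 ↔ aeval (Fin.tail x) c = 0 := fun c =>
    Subtype.ext_iff.trans (Eq.congr_left (aeval_algebraMap_apply (RatFunc L) y c).symm)
  have hx' : (Fin.cons 1 (Fin.tail x) : Fin 6 → RatFunc L) = x := x0 ▸ Fin.cons_self_tail x
  have h6 : aeval (Fin.tail x) (Brg.Cubic.deh G) = 0 := by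
    rw [← Brg.Hyp0.aeval_cons, hx', aeval_eq hG.1, h1]
  have h7 := (Brg.Cubic.totalDegree_deh G).trans hG.1.totalDegree_le
  have h8 := bez1 hy hP.ne_zero ((he _).2 h6) h7
  have h9 := Loc.dim_tower ℂ k (RatFunc L)
  rw [Loc.dim_tower k E (RatFunc L), Loc.dim_eq_zero_iff.2 hfin, h5] at h9
  have hk : dim ℂ k = 4 := by omega
  obtain ⟨a, ha, ha', hg⟩ := hc (by omega)
  have hb : bnum [Λ.xi, Λ.xi, Λ.xi, Λ.xi, Λ.g] = bnum (replicate 4 (mx1 ℂ y)) *
      (Module.finrank E (RatFunc L) * bnum [a]) := by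
    have e1 : Λ.xi = pb k.val (mx1 ℂ y) := by
      rw [pb_mx1, mx1, Lines.xi, ← hx, ← hx']
      rfl
    have e2 : up k Λ.g = pb E.val a := by
      rw [← hg, Lines.g, up_mxf]
      refine congrArg (mxf k) (funext fun ij => ?_)
      simp only [Lines.plk, hx, Lines.pt, v, map_sub, map_mul]
      ring
    have e3 := Loc.bnum_prj_val k [Λ.g] (lam := replicate 4 (mx1 ℂ y)) (by simp [hk])
    have e4 := bnum_pb E.val [a]
    rw [Loc.val_eq, deg_tower, ← Loc.val_eq] at e4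
    rw [bnum_comm, List.map_replicate, ← e1, List.map_singleton, e2] at e3
    rw [← e4]
    exact e3
  have hA := pos_mx1 hy
  have hA' := h8.2 (by omega)
  rw [hk] at hA hA'
  have hr' : 0 < Module.finrank E (RatFunc L) := Module.finrank_pos
  refine ⟨?_, ?_, ?_⟩
  · rw [← hx']
    refine Brg.Hyp0.gp_of_ker (N := 5) (by norm_num) (by norm_num) hG.1 hG.2 fun c =>
      ⟨fun h => by_contra fun h0 => ?_, fun ⟨r, hr⟩ => by rw [hr, map_mul, h6, zero_mul]⟩
    have := (bez2 hy hP ((he _).2 h6) h0 ((he _).2 h) le_rfl h7).1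
    omega
  · rw [hb]
    exact mul_pos hA (mul_pos (Nat.cast_pos.2 hr') ha)
  · rw [hb]
    exact (mul_le_mul hA' (mul_le_mul (by exact_mod_cast hr) ha' ha.le zero_le_two)
      (mul_pos (Nat.cast_pos.2 hr') ha).le (by norm_num)).trans (by norm_num)

end Crest.Agent.X262.Lin62
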