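import Crest.Agent.X262.Brg.Cubic

/-!
# Row 262, LIN (helper62), part 1: the trilinear form of a cubic, smoothness over extension fields,
no linear `P³` on a smooth cubic fourfold
-/

set_option autoImplicit false
set_option linter.unusedSectionVars false

open MvPolynomial Finset

noncomputable section

namespace Crest.Agent.X262.Lin62

variable {σ : Type} [Fintype σ]

theorem pderiv_comm (i j : σ) (p : MvPolynomial σ ℂ) :
    pderiv i (pderiv j p) = pderiv j (pderiv i p) := by
  classical
  induction p using MvPolynomial.induction_on with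
  | C a => simp
  | add p q hp hq => simp [hp, hq]
  | mul_X p l hp =>
    simp only [Derivation.leibniz, smul_eq_mul, map_add, hp, pderiv_X, Pi.single_apply]
    split_ifs <;> simp <;> ring

/-- the coefficients of the polar form -/
def cf (G : MvPolynomial σ ℂ) (i j l : σ) : ℂ :=
  6⁻¹ * coeff 0 (pderiv l (pderiv j (pderiv i G)))

theorem cf_12 (G : MvPolynomial σ ℂ) (i j l : σ) : cf G i j l = cf G j i l := by
  rw [cf, cf, pderiv_comm j i]

theorem cf_23 (G : MvPolynomial σ ℂ) (i j l : σ) : cf G i j l = cf G i l j := by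
  rw [cf, cf, pderiv_comm l j]

variable {R : Type} [CommRing R] [Algebra ℂ R]

/-- the polar form -/
def tri (G : MvPolynomial σ ℂ) (x y z : σ → R) : R :=
  ∑ i, ∑ j, ∑ l, algebraMap ℂ R (cf G i j l) * (x i * y j * z l)

variable {G : MvPolynomial σ ℂ}

theorem tri_12 (x y z : σ → R) : tri G x y z = tri G y x z := by
  rw [tri, tri, sum_comm]
  exact sum_congr rfl fun i _ => sum_congr rfl fun j _ => sum_congr rfl fun l _ => by
    rw [cf_12]; ring

theorem tri_23 (x y z : σ → R) : tri G x y z = tri G x z y := by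
  refine sum_congr rfl fun i _ => ?_
  rw [sum_comm]
  exact sum_congr rfl fun j _ => sum_congr rfl fun l _ => by rw [cf_23]; ring

theorem tri_13 (x y z : σ → R) : tri G x y z = tri G z y x := by
  rw [tri_12, tri_23, tri_12]

theorem tri_add1 (x x' y z : σ → R) : tri G (x + x') y z = tri G x y z + tri G x' y z := by
  simp only [tri, Pi.add_apply, add_mul, mul_add, sum_add_distrib]

theorem tri_smul1 (c : R) (x y z : σ → R) : tri G (c • x) y z = c * tri G x y z := by
  simp only [tri, Pi.smul_apply, smul_eq_mul, mul_sum]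
  exact sum_congr rfl fun i _ => sum_congr rfl fun j _ => sum_congr rfl fun l _ => by ring

theorem tri_add2 (x y y' z : σ → R) : tri G x (y + y') z = tri G x y z + tri G x y' z := by
  rw [tri_12, tri_add1, tri_12 y, tri_12 y']

theorem tri_smul2 (c : R) (x y z : σ → R) : tri G x (c • y) z = c * tri G x y z := by
  rw [tri_12, tri_smul1, tri_12]

theorem tri_add3 (x y z z' : σ → R) : tri G x y (z + z') = tri G x y z + tri G x y z' := by
  rw [tri_13, tri_add1, tri_13 z, tri_13 z']

theorem tri_smul3 (c : R) (x y z : σ → R) : tri G x y (c • z) = c * tri G x y z := by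
  rw [tri_13, tri_smul1, tri_13]

theorem map_tri {S : Type} [CommRing S] [Algebra ℂ S] (φ : R →ₐ[ℂ] S) (x y z : σ → R) :
    φ (tri G x y z) = tri G (fun i => φ (x i)) (fun i => φ (y i)) fun i => φ (z i) := by
  simp [tri]

/-- the polar form is linear in the last variable -/
theorem tri_eq_sum [DecidableEq σ] (x y z : σ → R) :
    tri G x y z = ∑ l, tri G x y (Pi.single l 1) * z l := by
  have h : ∀ l, tri G x y (Pi.single l 1) =
      ∑ i, ∑ j, algebraMap ℂ R (cf G i j l) * (x i * y j) := fun l =>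
    sum_congr rfl fun i _ => sum_congr rfl fun j _ => by
      rw [sum_eq_single l] <;> simp +contextual
  simp only [h, sum_mul]
  rw [sum_comm]
  refine sum_congr rfl fun i _ => ?_
  rw [sum_comm]
  exact sum_congr rfl fun j _ => sum_congr rfl fun l _ => by ring

/-- the cube of a sum -/
theorem tri_cube (c : R) (x v : σ → R) : tri G (c • x + v) (c • x + v) (c • x + v) =
    c ^ 3 * tri G x x x + 3 * c ^ 2 * tri G x x v + 3 * c * tri G v v x + tri G v v v := by
  simp only [tri_add1, tri_add2, tri_add3, tri_smul1, tri_smul2, tri_smul3]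
  rw [tri_23 x v x, tri_13 v x x, tri_13 x v v, tri_23 v x v]
  ring

section Hom

variable (hG : G.IsHomogeneous 3)
include hG

theorem pd3 (i j l : σ) : pderiv l (pderiv j (pderiv i G)) = C (6 * cf G i j l) := by
  have h : (pderiv l (pderiv j (pderiv i G))).IsHomogeneous 0 := hG.pderiv.pderiv.pderiv
  rw [← totalDegree_zero_iff_isHomogeneous, totalDegree_eq_zero_iff_eq_C] at h
  rw [h, cf]
  congr 1
  simp

theorem pd2 (i j : σ) : pderiv j (pderiv i G) = ∑ l, C (6 * cf G i j l) * X l := by
  have h : (pderiv j (pderiv i G)).IsHomogeneous 1 := hG.pderiv.pderiv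
  rw [← one_smul ℕ (pderiv j (pderiv i G)), ← h.sum_X_mul_pderiv]
  exact sum_congr rfl fun l _ => by rw [pd3 hG, mul_comm]

theorem pd1 (i : σ) : pderiv i G = ∑ j, ∑ l, C (3 * cf G i j l) * (X j * X l) := by
  have h : (pderiv i G).IsHomogeneous 2 := hG.pderiv
  have h2 := h.sum_X_mul_pderiv
  refine smul_right_injective _ (two_ne_zero (α := ℂ)) ?_
  simp only [smul_sum]
  rw [two_smul, ← two_nsmul, ← h2]
  refine sum_congr rfl fun j _ => ?_
  rw [pd2 hG, mul_sum]
  refine sum_congr rfl fun l _ => ?_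
  rw [smul_eq_C_mul, ← mul_assoc (C 2), ← C_mul]
  ring_nf

theorem aeval_pd [DecidableEq σ] (x : σ → R) (i : σ) :
    aeval x (pderiv i G) = 3 * tri G x x (Pi.single i 1) := by
  have h : tri G (Pi.single i 1) x x = ∑ j, ∑ l, algebraMap ℂ R (cf G i j l) * (x j * x l) := by
    rw [tri, sum_eq_single i] <;> simp +contextual
  rw [tri_13, h, pd1 hG]
  simp only [map_sum, map_mul, aeval_C, aeval_X, mul_sum, map_ofNat]
  exact sum_congr rfl fun j _ => sum_congr rfl fun l _ => by ring

theorem aeval_eq (x : σ → R) : aeval x G = tri G x x x := by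
  classical
  have h : G = ∑ i, ∑ j, ∑ l, C (cf G i j l) * (X i * X j * X l) := by
    refine smul_right_injective _ (three_ne_zero (α := ℂ)) ?_
    simp only [smul_sum]
    rw [show (3 : ℂ) • G = 3 • G by rw [← Nat.cast_smul_eq_nsmul ℂ]; rfl, ← hG.sum_X_mul_pderiv]
    refine sum_congr rfl fun i _ => ?_
    rw [pd1 hG, mul_sum]
    refine sum_congr rfl fun j _ => ?_
    rw [mul_sum]
    refine sum_congr rfl fun l _ => ?_
    rw [smul_eq_C_mul, C_mul]
    ring
  conv_lhs => rw [h]
  simp [tri]

end Hom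

/-- no singular point over any extension field -/
def SmF (G : MvPolynomial σ ℂ) : Prop := ∀ (E : Type) [Field E] [Algebra ℂ E] (y : σ → E),
  (∀ u, tri G y y u = 0) → y = 0

theorem smF (hG : G.IsHomogeneous 3)
    (hs : ∀ p : σ → ℂ, p ≠ 0 → eval p G = 0 → ∃ i, eval p (pderiv i G) ≠ 0) : SmF G := by
  classical
  intro E _ _ y hy
  ext a
  let I : Ideal (MvPolynomial σ ℂ) := Ideal.span (Set.range fun i => pderiv i G)
  have h1 : (X a : MvPolynomial σ ℂ) ∈ vanishingIdeal ℂ (zeroLocus ℂ I) := by
    rw [mem_vanishingIdeal_iff]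
    intro p hp
    have h2 : ∀ i, aeval p (pderiv i G) = 0 := fun i => hp _ (Ideal.subset_span ⟨i, rfl⟩)
    have h3 : aeval p G = 0 := by
      rw [aeval_eq hG, tri_eq_sum]
      refine sum_eq_zero fun l _ => ?_
      have := h2 l
      rw [aeval_pd hG] at this
      rw [(mul_eq_zero.1 this).resolve_left three_ne_zero, zero_mul]
    by_contra h0
    obtain ⟨i, hi⟩ := hs p (fun h => h0 (by simp [h])) h3
    exact hi (h2 i)
  rw [vanishingIdeal_zeroLocus_eq_radical] at h1
  obtain ⟨n, hn⟩ := h1
  have h4 : I ≤ RingHom.ker (aeval y : MvPolynomial σ ℂ →ₐ[ℂ] E) := Ideal.span_le.2 (by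
    rintro _ ⟨i, rfl⟩
    change aeval y (pderiv i G) = 0
    rw [aeval_pd hG, hy, mul_zero])
  have h5 : aeval y ((X a : MvPolynomial σ ℂ) ^ n) = 0 := h4 hn
  rw [map_pow, aeval_X] at h5
  exact eq_zero_of_pow_eq_zero h5

theorem coeffs_zero {E : Type} [Field E] [CharZero E] {a b c d : E}
    (h : ∀ t : E, t ^ 3 * a + 3 * t ^ 2 * b + 3 * t * c + d = 0) :
    a = 0 ∧ b = 0 ∧ c = 0 ∧ d = 0 := by
  have h0 := h 0
  have h1 := h 1
  have h2 := h (-1)
  have h3 := h 2
  have hd : d = 0 := by linear_combination h0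
  have hb : b = 0 := by linear_combination (h1 + h2 - 2 * h0) / 6
  have hc : c = 0 := by linear_combination (8 * h1 - h3 - 7 * h0 - 12 * hb) / 18
  exact ⟨by linear_combination h1 - 3 * hb - 3 * hc - hd, hb, hc, hd⟩

/-- a smooth cubic contains no linear space of small codimension -/
theorem no_lin (hs : SmF G) {Ω : Type} [Field Ω] [Algebra ℂ Ω] [IsAlgClosed Ω]
    (W : Submodule Ω (σ → Ω)) (hW : Fintype.card σ < 2 * Module.finrank Ω W)
    (h : ∀ y ∈ W, tri G y y y = 0) : False := by
  classical
  have : CharZero Ω := charZero_of_injective_algebraMap (algebraMap ℂ Ω).injective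
  obtain ⟨W', hW'⟩ := W.exists_isCompl
  have hr := Submodule.finrank_add_eq_of_isCompl hW'
  rw [Module.finrank_fintype_fun_eq_card] at hr
  let b := Module.finBasis Ω W
  let u := Module.finBasis Ω W'
  let Y : σ → MvPolynomial (Fin (Module.finrank Ω W)) Ω := fun i => ∑ a, X a * C ((b a : σ → Ω) i)
  let Q : Fin (Module.finrank Ω W') → MvPolynomial (Fin (Module.finrank Ω W)) Ω :=
    fun r => tri G Y Y fun i => C ((u r : σ → Ω) i)
  have hev : ∀ c r, eval c (Q r) = tri G (∑ a, c a • (b a : σ → Ω)) (∑ a, c a • (b a : σ → Ω))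
      (u r : σ → Ω) := fun c r => by
    have := map_tri (G := G) ((aeval c : MvPolynomial _ Ω →ₐ[Ω] Ω).restrictScalars ℂ) Y Y
      fun i => C ((u r : σ → Ω) i)
    have e : (fun i => (aeval c : MvPolynomial _ Ω →ₐ[Ω] Ω).restrictScalars ℂ (Y i)) =
        ∑ a, c a • (b a : σ → Ω) := by
      ext i; simp [Y]
    rw [e] at this
    simpa [Q] using this
  obtain ⟨c, hc, hq⟩ := Brg.Cubic.exists_common_zero (univ.image Q)
    ((card_image_le.trans_eq (by simp)).trans_lt (by omega : Module.finrank Ω W' < _)) 0 (by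
      intro g hg
      obtain ⟨r, -, rfl⟩ := mem_image.1 hg
      rw [hev]
      simp [tri])
  set y := ∑ a, c a • (b a : σ → Ω) with hy
  have hyW : y ∈ W := W.sum_mem fun a _ => W.smul_mem _ (b a).2
  have h1 : ∀ w ∈ W, tri G y y w = 0 := fun w hw =>
    (coeffs_zero fun t => by rw [← tri_cube]; exact h _ (W.add_mem (W.smul_mem t hyW) hw)).2.1
  have h2 : ∀ w ∈ W', tri G y y w = 0 := fun w hw => by
    have e := congrArg (fun z : W' => (z : σ → Ω)) (u.sum_repr ⟨w, hw⟩)
    simp only [Submodule.coe_sum, Submodule.coe_smul] at e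
    rw [← e]
    refine Finset.sum_induction _ (fun z => tri G y y z = 0) (fun a b ha hb => by
      rw [tri_add3, ha, hb, add_zero]) (by simp [tri]) fun r _ => ?_
    rw [tri_smul3, ← hev, hq _ (mem_image_of_mem _ (mem_univ r)), mul_zero]
  have h3 : y = 0 := hs Ω y fun z => by
    obtain ⟨w, hw, w', hw', rfl⟩ := Submodule.mem_sup.1 (hW'.sup_eq_top ▸ Submodule.mem_top (x := z))
    rw [tri_add3, h1 w hw, h2 w' hw', add_zero]
  refine hc (funext fun a => Fintype.linearIndependent_iff.1 b.linearIndependent c ?_ a)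
  exact Subtype.ext (by simpa [hy] using h3)

end Crest.Agent.X262.Lin62
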